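import Vale.Agent.P275SR.Wd

/-!
P275 (helper6): the big circle is the product of the commutators of a free basis.
-/

set_option linter.all false

open scoped Real
open Set unitInterval

noncomputable section

namespace Vale.Agent.P275SR

open Vale.Agent.P275RH

variable {X : Type} [TopologicalSpace X] (B : Bc X) {Q : Set ℂ} {i : ℕ} {x x' d u : ℝ} {y z : X}

theorem base : B.f (B.κ (B.θ 0)) ∈ B.T 0 := B.mem_T (.inl rfl) (.inr (B.sin_le (Nat.zero_le _)))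

open Classical in
/-- the vertex of a point at a level -/
def vt (i : ℕ) (y : X) : B.V :=
  if h : i ≤ B.m ∧ B.f y ∈ B.T i then B.vx h.1 h.2 else B.vx (Nat.zero_le _) (base B)

theorem vt_eq (hi : i ≤ B.m) (h : B.f y ∈ B.T i) : vt B i y = B.vx hi h := dif_pos ⟨hi, h⟩

theorem mem_v0 : B.κ (B.θ 0) ∈ B.U (vt B 0 (B.κ (B.θ 0))) :=
  (vt_eq B (Nat.zero_le _) (base B)).symm ▸ B.mem_vx _ _

/-- the word which is read along the big circle -/
def P (i : ℕ) (x : ℝ) : FreeGroup B.E :=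
  (hol B.U (gc B.W B.t) (.mk (sg B (B.θ 0) x)) (vt B 0 (B.κ (B.θ 0))) (vt B i (B.κ x)))⁻¹

theorem left_S (k : Fin B.m) (j : ℕ) : B.f (B.κ (π - B.θ (k + 1) + 2 * π * j)) ∈ B.S k :=
  B.mem_S k.2 ((Bc.sin_add _ _).trans (Real.sin_pi_sub _))

/-- the edges on the left -/
def lft (k : Fin B.m) (j : Fin B.N) : Fin B.N := (B.ex_W k (left_S B k j)).choose

theorem lt_spec (k : Fin B.m) (j : Fin B.N) :
    B.κ (π - B.θ (k + 1) + 2 * π * (j : ℕ)) ∈ B.W (k, lft B k j) := (B.ex_W k (left_S B k j)).choose_spec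

/-- the word of the big circle -/
def wd : List (B.E × Bool) := (List.ofFn fun j : Fin B.N =>
  (List.ofFn fun k : Fin B.m => [((k, j), true)]).flatten ++
    (List.ofFn fun k : Fin B.m => [((k.rev, lft B k.rev j), false)]).flatten).flatten

theorem pt_W (e : B.E) : B.pt e ∈ B.W e := mem_pathComponentIn_self (B.pt_S e)

theorem mem_wd : ∀ a, a ∈ wd B := by
  rintro ⟨⟨k, j⟩, _ | _⟩
  · obtain ⟨y, h1, h2⟩ := (B.S_fr k).s1 (B.pt_S (k, j)) (left_S B k 0)
    obtain ⟨j', rfl⟩ := B.sur _ y (h1.trans (B.fκ_add _ _))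
    obtain rfl : j = lft B k j' := congrArg Prod.snd (B.W_dis (k, j) _ h2 (lt_spec B k j'))
    exact List.mem_flatten.2 ⟨_, List.mem_ofFn.2 ⟨j', rfl⟩, List.mem_append_right _
      (List.mem_flatten.2 ⟨_, List.mem_ofFn.2 ⟨k.rev, rfl⟩, by simp⟩)⟩
  · exact List.mem_flatten.2 ⟨_, List.mem_ofFn.2 ⟨j, rfl⟩, List.mem_append_left _
      (List.mem_flatten.2 ⟨_, List.mem_ofFn.2 ⟨k, rfl⟩, by simp⟩)⟩

theorem nodup_wd : (wd B).Nodup := nodup_of (mem_wd B) (by
  simp [wd, List.length_flatten, List.map_ofFn, List.sum_ofFn, Function.comp_def]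
  ring)

/-- the state in which a letter is read -/
def Qp (a : B.E × Bool) (g : FreeGroup B.E) : Prop :=
  ∃ x, B.κ x ∈ B.W a.1 ∧ B.f (B.κ x) = B.f (B.κ (ang B a.2 (a.1.1 + 1))) ∧
    g = P B (if a.2 then a.1.1 else a.1.1 + 1) x

/-- the value of a cochain at a point of the big circle -/
def G (α : B.E → ℤ) (i : ℕ) (y : X) : ℤ := av α (P B i (Function.invFun B.κ y))

/-- the marked points -/
def Z (i : ℕ) : Set X := {y | ∃ ρ τ : Bool, B.f y = B.f (B.κ (ang B ρ (i + τ.toNat)))}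

variable {B} (h : Gc B.U B.W B.s B.t)
include h

theorem q1 (hi : i ≤ B.m) (hd : Sh B d) (ha : ∀ u ∈ uIcc x x', B.f (B.κ u) ∈ B.T i) :
    P B i (x + d) = P B i (x' + d) := by
  have j : JoinedIn (B.f ⁻¹' B.T i) (B.κ (x + d)) (B.κ (x' + d)) := ⟨_, sg_mem B hd ha⟩
  rw [P, P, vt_eq B hi j.source_mem, vt_eq B hi j.target_mem, ← B.vx_join hi j,
    ← sg_trans B _ (x + d) (x' + d), h.cy.hol_trans (B.mem_vx hi j.source_mem), h.cy.hol_self, one_mul]
  haveI : ContractibleSpace I := (convex_Icc (0 : ℝ) 1).contractibleSpace ⟨0, by simp⟩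
  exact fun t => ((isPathConnected_range (sg B (x + d) (x' + d)).continuous).joinedIn _
    ⟨0, (sg B _ _).source⟩ _ ⟨t, rfl⟩).mono (range_subset_iff.2 (sg_mem B hd ha))

theorem q2 {e : B.E} (he : B.κ x ∈ B.W e) : P B (e.1 + 1) x = P B e.1 x * .of e := by
  rw [P, P, vt_eq B e.1.2 (B.W_S he).2, vt_eq B e.1.2.le (B.W_S he).1, ← B.s_eq he, ← B.t_eq he,
    h.cy.hol_right _ ((h.sub e _ _ he).2 (.inl rfl)) ((h.sub e _ _ he).2 (.inr rfl)), h.gc_ts he,
    mul_inv_rev, inv_inv]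

theorem p_zero : P B 0 (B.θ 0) = 1 := by
  rw [P, h.cy.hol_self, inv_one]
  intro t
  rw [sg_apply, sub_self, mul_zero, add_zero]
  exact mem_v0 B

theorem p_per (i : ℕ) (x : ℝ) :
    P B i (x + 2 * π * B.N) = P B 0 (B.θ 0 + 2 * π * B.N) * P B i x := by
  rw [P, P, P, ← sg_trans B _ (B.θ 0 + 2 * π * B.N) (x + 2 * π * B.N),
    h.cy.hol_trans (j := vt B 0 (B.κ (B.θ 0))) ((B.per _).symm ▸ mem_v0 B), mul_inv_rev,
    hol_path_congr (γ := sg B (B.θ 0 + 2 * π * B.N) (x + 2 * π * B.N)) (γ' := sg B (B.θ 0) x)]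
  · congr 3
    exacts [congrArg _ (B.per _).symm, congrArg _ (B.per _)]
  · intro t
    rw [sg_apply, sg_apply, ← B.per (B.θ 0 + t * (x - B.θ 0))]
    exact congrArg _ (by ring)

theorem p_loop : hol B.U (gc B.W B.t) (.mk (B.loop (B.θ 0))) (vt B 0 (B.κ (B.θ 0)))
    (vt B 0 (B.κ (B.θ 0))) = P B 0 (B.θ 0 + 2 * π * B.N) := by
  rw [P, congrArg (vt B 0) (B.per (B.θ 0)), ← h.cy.hol_symm _ (mem_v0 B) ((B.per _).symm ▸ mem_v0 B)]
  refine hol_path_congr (γ' := (sg B (B.θ 0) (B.θ 0 + 2 * π * B.N)).symm) (fun t => ?_) _ _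
  rw [Path.symm_apply, Function.comp_apply, sg_apply, Bc.loop_apply, ← B.per, coe_symm_eq]
  exact congrArg _ (by ring)

theorem ch : Ch (Qp B) 1 (wd B) (P B 0 (B.θ 0 + 2 * π * B.N)) := by
  have := Ch.fin (Q := Qp B) B.N (fun j => P B 0 (B.θ 0 + 2 * π * j)) (fun j : Fin B.N =>
    (List.ofFn fun k : Fin B.m => [((k, j), true)]).flatten ++
      (List.ofFn fun k : Fin B.m => [((k.rev, lft B k.rev j), false)]).flatten) fun j => ?_
  · rwa [Nat.cast_zero, mul_zero, add_zero, p_zero h] at this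
  have hd := sh_nat B j
  have up := Ch.fin (Q := Qp B) B.m (fun k => P B k (B.θ k + 2 * π * (j : ℕ)))
    (fun k : Fin B.m => [((k, j), true)]) fun k => by
      have e := q1 h k.2.le hd fun u hu => (arc B k.castSucc true false true hu).1
      exact Ch.one ⟨_, pt_W B (k, j), hd _, e⟩ ((congrArg (· * _) e).trans (q2 h (pt_W B (k, j))).symm)
  have dn := Ch.fin (Q := Qp B) B.m (fun k => P B (B.m - k) (π - B.θ (B.m - k) + 2 * π * (j : ℕ)))
    (fun k : Fin B.m => [((k.rev, lft B k.rev j), false)]) fun k => by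
      have e := q1 h k.rev.2.le hd fun u hu => (arc B k.rev.castSucc false false true hu).1
      rw [show B.m - k = k.rev + 1 by rw [Fin.val_rev]; omega, ← Fin.val_rev]
      refine Ch.one ⟨_, lt_spec B k.rev j, hd _, rfl⟩ ?_
      rw [q2 h (lt_spec B k.rev j)]
      exact (mul_inv_cancel_right _ _).trans e.symm
  rw [Nat.sub_self, Nat.sub_zero, ← q1 h le_rfl hd fun u hu => B.mem_T (.inr (sin_top (B.θ_mem _) hu))
    (.inl rfl), ← q1 h (Nat.zero_le _) hd fun u hu => B.mem_T (.inl rfl) (.inr ((sin_bot (B.θ_mem _)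
      hu).trans (B.sin_le (Nat.zero_le _)))), show B.θ 0 + 2 * π + 2 * π * (j : ℕ) =
        B.θ 0 + 2 * π * ((j : ℕ) + 1 : ℕ) by push_cast; ring] at dn
  exact up.app dn

theorem p_wd : P B 0 (B.θ 0 + 2 * π * B.N) = .mk (wd B) := (ch h).1.symm.trans (one_mul _)

variable {α : B.E → ℤ}

theorem g_κ (i : ℕ) (x : ℝ) : G B α i (B.κ x) = av α (P B i x) := by
  obtain ⟨k, hk⟩ := B.inj _ _ (Function.invFun_eq (f := B.κ) ⟨x, rfl⟩)
  have : Function.Periodic (fun x => av α (P B i x)) (2 * π * B.N) := fun x => by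
    beta_reduce
    rw [p_per h, av_mul, p_wd h, av_mk, sm_zero (mem_wd B) (nodup_wd B), zero_add]
  exact ((congrArg (fun x => av α (P B i x)) hk).trans (this.int_mul k _)).symm

theorem g_arc (hi : i ≤ B.m) (hQ : B.Fr Q) (s : Q ⊆ B.T i) (j : JoinedIn (B.f ⁻¹' Q) y z)
    (hy : B.f y = B.f (B.κ x)) (hz : B.f z = B.f (B.κ x')) (ha : ∀ u ∈ uIcc x x', B.f (B.κ u) ∈ Q) :
    G B α i y = G B α i z := by
  obtain ⟨d, hd, rfl⟩ := ex_κ B hy
  rw [hQ.s2 (j.symm.trans ⟨_, sg_mem B hd ha⟩) (hz.trans (hd x').symm), g_κ h, g_κ h,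
    q1 h hi hd fun u hu => s (ha u hu)]

theorem g_edge {e : B.E} (he : B.κ x ∈ B.W e) :
    G B α (e.1 + 1) (B.κ x) = G B α e.1 (B.κ x) + α e := by
  rw [g_κ h, g_κ h, q2 h he, av_mul, av_of]

variable (H : ∀ e A A', A ++ [(e, true)] <+: wd B → A' ++ [(e, false)] <+: wd B →
    sm α A + α e = sm α A')
include H

theorem g_lr (k : Fin B.m) (j : JoinedIn (B.f ⁻¹' B.S k) y z)
    (hy : B.f y = B.f (B.κ (ang B true (k + 1)))) (hz : B.f z = B.f (B.κ (ang B false (k + 1)))) :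
    G B α (k + 1) y = G B α (k + 1) z ∧ G B α k y = G B α k z := by
  obtain ⟨l, hl⟩ := B.ex_W k j.source_mem
  obtain ⟨A, a1, x, a2, a3, a4⟩ := (ch h).2 ((k, l), true) (mem_wd B _)
  obtain ⟨A', b1, x', b2, b3, b4⟩ := (ch h).2 ((k, l), false) (mem_wd B _)
  obtain rfl : y = B.κ x := (B.S_fr k).s2 (JoinedIn.trans (JoinedIn.symm hl) a2) (hy.trans a3.symm)
  obtain rfl : z = B.κ x' := (B.S_fr k).s2 (j.symm.trans (JoinedIn.trans (JoinedIn.symm hl) b2))
    (hz.trans b3.symm)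
  have e := H _ _ _ a1 b1
  rw [← av_mk, ← av_mk, ← one_mul (FreeGroup.mk A), ← one_mul (FreeGroup.mk A'), a4, b4, ← g_κ h,
    ← g_κ h] at e
  have e1 := g_edge (α := α) h a2
  have e2 := g_edge (α := α) h b2
  simp only [if_true, Bool.false_eq_true, if_false] at e e1 e2
  constructor <;> omega

theorem g_im (i : Fin (B.m + 1)) (τ : Bool) (j : JoinedIn (B.f ⁻¹' B.Hq i (true, τ)) y z)
    (hy : B.f y = B.f (B.κ (ang B true (i + τ.toNat))))
    (hz : B.f z = B.f (B.κ (ang B false (i + τ.toNat)))) : G B α i y = G B α i z := by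
  cases τ
  · induction i using Fin.cases with
    | zero =>
      refine g_arc h (Nat.zero_le _) (B.Q_fr _ _) (fun _ a => a.1) j
        (x := B.θ 0 + 2 * π) (hy.trans ?_) hz fun u hu => mem_down B 0 (sin_bot (B.θ_mem _) hu) (.inl rfl)
      simpa [ang] using (sh_nat B 1 (B.θ 0)).symm
    | succ k => exact (g_lr h H k (j.mono (preimage_mono (down_S B k))) hy hz).1
  · induction i using Fin.lastCases with
    | last =>
      exact g_arc h le_rfl (B.Q_fr _ _) (fun _ a => a.1) j hy hz fun u hu =>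
        mem_up B _ (sin_top (B.θ_mem _) hu) (.inl rfl)
    | cast k => exact (g_lr h H k (j.mono (preimage_mono (up_S B k))) hy hz).2

theorem g_join (hL : LD X) (hi : i ≤ B.m) (hy : y ∈ Z B i) (hz : z ∈ Z B i)
    (j : JoinedIn (B.f ⁻¹' B.T i) y z) : G B α i y = G B α i z := by
  obtain ⟨i, rfl⟩ : ∃ k : Fin (B.m + 1), (k : ℕ) = i := ⟨⟨i, Nat.lt_succ_of_le hi⟩, rfl⟩
  have n : ∀ y ∈ Z B i, y ∉ B.f ⁻¹' {B.b i} := fun y ⟨ρ, τ, e⟩ a =>
    (B.Q_fr i _).nb i ((a.symm.trans e).symm ▸ ang_mem B i ρ τ true)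
  refine lc_join (Y := fun a => B.f ⁻¹' B.Hq i a) (fun a => (B.Q_fr i a).op.preimage B.cont)
    (fun a a' y h1 h2 => ?_) ?_ hy hz ((hL.punct ((B.T_open i).preimage B.cont) (B.fin _) j (n y hy)
      (n z hz)).mono fun w a => mem_iUnion.2 (B.Q_cov a.1 a.2))
  · obtain ⟨ρ, τ, e, e'⟩ : ∃ ρ τ : Bool, a = (a.1, if a.1 then τ else ρ) ∧
        a' = (a'.1, if a'.1 then τ else ρ) := by
      have : a.1 = a'.1 → a.2 = a'.2 := fun e => hq_dis B (b := a.1) h1 (e ▸ h2)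
      clear h1 h2
      revert this a a'
      decide
    obtain ⟨w, b1, b2⟩ := ((B.Q_fr i a).inter (B.Q_fr i a').cv (B.Q_fr i a').op).s1 ⟨h1, h2⟩
      ⟨e ▸ ang_mem B i ρ τ _, e' ▸ ang_mem B i ρ τ _⟩
    exact ⟨w, ⟨ρ, τ, b1⟩, b2⟩
  · rintro ⟨b, c⟩ y ⟨ρ, τ, e⟩ z ⟨ρ', τ', e'⟩ j
    have s := hq_dis B (e ▸ (j.source_mem : B.f y ∈ _)) (ang_mem B i ρ τ b)
    have s' := hq_dis B (e' ▸ (j.target_mem : B.f z ∈ _)) (ang_mem B i ρ' τ' b)
    cases b
    · obtain rfl : c = ρ := s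
      obtain rfl : c = ρ' := s'
      exact g_arc h hi (B.Q_fr _ _) (fun _ a => a.1) j e e' fun u hu => arc B i c τ τ' hu
    · obtain rfl : c = τ := s
      obtain rfl : c = τ' := s'
      cases ρ <;> cases ρ'
      exacts [congrArg _ ((B.Q_fr _ _).s2 j (e.trans e'.symm)), (g_im h H i c j.symm e' e).symm,
        g_im h H i c j e e', congrArg _ ((B.Q_fr _ _).s2 j (e.trans e'.symm))]

omit H

theorem nd (hL : LD X) : ND B.s B.t (wd B) := fun α H => by
  classical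
  let φ : B.V → ℤ := fun v => if a : ∃ y ∈ B.U v, y ∈ Z B v.1.1 then G B α v.1.1 a.choose else 0
  have k : ∀ v, ∀ y ∈ B.U v, y ∈ Z B v.1.1 → φ v = G B α v.1.1 y := fun v y a b => by
    have c : ∃ y ∈ B.U v, y ∈ Z B v.1.1 := ⟨y, a, b⟩
    refine (dif_pos c).trans (g_join h H hL v.2.1 c.choose_spec.2 b ?_)
    have d := c.choose_spec.1
    generalize c.choose = w at d
    obtain ⟨i, x, hi, hx, rfl⟩ := B.ex_vx v
    exact JoinedIn.trans (JoinedIn.symm d) a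
  refine ⟨φ, fun e => ?_⟩
  rw [k (B.t e) _ (B.mem_vx _ _) ⟨true, false, sh_nat B _ _⟩,
    k (B.s e) _ (B.mem_vx _ _) ⟨true, true, sh_nat B _ _⟩]
  exact eq_sub_of_add_eq' (g_edge h (pt_W B e)).symm

omit h

/-- the big circle is the product of the commutators of a free basis -/
theorem str : STR := fun h0 X _ _ _ hL B => by
  haveI := hL.lpc
  have h := B.graph hL
  have e0 := (p_loop h).trans (p_wd h)
  obtain ⟨g, e, he⟩ := h0 _ _ B.s B.t _ (wd B) (h.cn _) (nodup_wd B) (mem_wd B)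
    (e0 ▸ h.wk_hol _ (mem_v0 B) (mem_v0 B)) (nd h hL)
  obtain ⟨Φ, hΦ⟩ := h.iso (mem_v0 B)
  exact ⟨_, g, e.trans Φ.symm, Φ.symm_apply_eq.2 (Subtype.ext (he.trans (e0.symm.trans (hΦ _).symm)))⟩

end Vale.Agent.P275SR
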