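import Vale.Agent.P275RH.Blk

/-!
P275 (helper6): words read along a path, arcs of the big circle.
-/

set_option linter.all false

open scoped Real
open Set unitInterval

noncomputable section

namespace Vale.Agent.P275SR

open Vale.Agent.P275RH

section word

variable {E : Type} {Q : E × Bool → FreeGroup E → Prop} {g g' g'' : FreeGroup E}
  {w w' : List (E × Bool)}

/-- reading the word `w` leads from `g` to `g'`, every letter is read in a good state -/
def Ch (Q : E × Bool → FreeGroup E → Prop) (g : FreeGroup E) (w : List (E × Bool))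
    (g' : FreeGroup E) : Prop :=
  g * FreeGroup.mk w = g' ∧ ∀ a ∈ w, ∃ A, A ++ [a] <+: w ∧ Q a (g * FreeGroup.mk A)

theorem Ch.nil : Ch Q g [] g := ⟨mul_one g, by simp⟩

theorem Ch.one {a : E × Bool} (h : Q a g) (e : g * .mk [a] = g') : Ch Q g [a] g' :=
  ⟨e, fun b hb => by
    obtain rfl := List.mem_singleton.1 hb
    exact ⟨[], List.prefix_refl _, (mul_one g).symm ▸ h⟩⟩

theorem Ch.app (h : Ch Q g w g') (h' : Ch Q g' w' g'') : Ch Q g (w ++ w') g'' := by
  refine ⟨by rw [← FreeGroup.mul_mk, ← mul_assoc, h.1, h'.1], fun a ha => ?_⟩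
  rcases List.mem_append.1 ha with ha | ha
  · obtain ⟨A, h1, h2⟩ := h.2 a ha
    exact ⟨A, h1.trans (List.prefix_append _ _), h2⟩
  · obtain ⟨A, h1, h2⟩ := h'.2 a ha
    exact ⟨w ++ A, by rw [List.append_assoc]; exact (List.prefix_append_right_inj _).2 h1,
      by rwa [← FreeGroup.mul_mk, ← mul_assoc, h.1]⟩

theorem Ch.fin : ∀ (n : ℕ) (p : ℕ → FreeGroup E) (u : Fin n → List (E × Bool)),
    (∀ k : Fin n, Ch Q (p k) (u k) (p (k + 1))) → Ch Q (p 0) (List.ofFn u).flatten (p n)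
  | 0, _, _, _ => Ch.nil
  | n + 1, p, u, h => by
    rw [List.ofFn_succ, List.flatten_cons]
    exact (h 0).app (Ch.fin n (fun k => p (k + 1)) _ fun k => h k.succ)

/-- the value of a cochain on the free group -/
def av (α : E → ℤ) (x : FreeGroup E) : ℤ :=
  (FreeGroup.lift (fun e => Multiplicative.ofAdd (α e)) x).toAdd

theorem av_mul (α : E → ℤ) (x y : FreeGroup E) : av α (x * y) = av α x + av α y := by
  rw [av, map_mul]; rfl

theorem av_of (α : E → ℤ) (e : E) : av α (.of e) = α e := by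
  rw [av, FreeGroup.lift_apply_of]; rfl

theorem av_mk (α : E → ℤ) (A : List (E × Bool)) : av α (.mk A) = sm α A := by
  rw [av, FreeGroup.lift_mk, sm]
  induction A with
  | nil => rfl
  | cons a A ih =>
    rw [List.map_cons, List.prod_cons, toAdd_mul, ih, List.map_cons, List.sum_cons]
    obtain ⟨e, _ | _⟩ := a <;> rfl

theorem nodup_of [Fintype E] (h : ∀ a, a ∈ w) (l : w.length = Fintype.card E * 2) : w.Nodup := by
  classical
  have e : w.toFinset = Finset.univ := Finset.eq_univ_of_forall fun a => List.mem_toFinset.2 (h a)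
  refine List.dedup_eq_self.1 ((List.dedup_sublist w).eq_of_length ?_)
  rw [← List.card_toFinset, e, l, Finset.card_univ, Fintype.card_prod, Fintype.card_bool]

theorem sm_zero [Fintype E] (h : ∀ a, a ∈ w) (n : w.Nodup) (α : E → ℤ) : sm α w = 0 := by
  classical
  have e : w.toFinset = Finset.univ := Finset.eq_univ_of_forall fun a => List.mem_toFinset.2 (h a)
  rw [sm, ← List.sum_toFinset _ n, e, Fintype.sum_prod_type]
  simp

end word

theorem sin_top {a u : ℝ} (ha : a ∈ Icc (-(π / 2)) (π / 2)) (hu : u ∈ uIcc a (π - a)) :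
    Real.sin a ≤ Real.sin u := by
  rw [uIcc_of_le (by linarith [ha.2])] at hu
  rcases le_total u (π / 2) with h | h
  · exact Real.sin_le_sin_of_le_of_le_pi_div_two ha.1 h hu.1
  · rw [← Real.sin_pi_sub u]
    exact Real.sin_le_sin_of_le_of_le_pi_div_two ha.1 (by linarith) (by linarith [hu.2])

theorem sin_bot {a u : ℝ} (ha : a ∈ Icc (-(π / 2)) (π / 2)) (hu : u ∈ uIcc (a + 2 * π) (π - a)) :
    Real.sin u ≤ Real.sin a := by
  rw [uIcc_of_ge (by linarith [ha.1])] at hu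
  have := sin_top (a := -a) (u := u - π) ⟨by linarith [ha.2], by linarith [ha.1]⟩
    (mem_uIcc_of_le (by linarith [hu.1]) (by linarith [hu.2]))
  rwa [Real.sin_neg, Real.sin_sub_pi, neg_le_neg_iff] at this

variable {X : Type} [TopologicalSpace X] (B : Bc X) {Q : Set ℂ} {i : ℕ} {x x' d u : ℝ} {y z : X}

/-- an arc of the big circle -/
def sg (a b : ℝ) : Path (B.κ a) (B.κ b) := (Path.segment a b).map B.cκ

theorem sg_apply (a b : ℝ) (t : I) : sg B a b t = B.κ (a + t * (b - a)) := by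
  show B.κ (AffineMap.lineMap a b (t : ℝ)) = _
  rw [AffineMap.lineMap_apply, vsub_eq_sub, vadd_eq_add, smul_eq_mul, add_comm]

theorem sg_trans (a b c : ℝ) : (Path.Homotopic.Quotient.mk (sg B a b)).trans (.mk (sg B b c)) =
    .mk (sg B a c) := by
  have := congrArg (fun q : PQ a c => q.map ⟨B.κ, B.cκ⟩) (Subsingleton.elim
    ((Path.Homotopic.Quotient.mk (Path.segment a b)).trans (.mk (Path.segment b c)))
    (.mk (Path.segment a c)))
  simp only [map_trans] at this
  exact this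

/-- a rotation by a multiple of the full angle -/
def Sh (d : ℝ) : Prop := ∀ u, B.f (B.κ (u + d)) = B.f (B.κ u)

theorem sh_nat (j : ℕ) : Sh B (2 * π * j) := fun u => (B.fκ_add u j).trans (B.fκ u).symm

theorem sh_of (h : B.f (B.κ x) = B.f (B.κ x')) : Sh B (x - x') := fun u => by
  rw [B.fκ, B.fκ] at h
  have := mul_left_cancel₀ (Complex.ofReal_ne_zero.2 B.r_pos.ne') h
  rw [B.fκ, B.fκ, show ((u + (x - x') : ℝ) : ℂ) * Complex.I = u * Complex.I + x * Complex.I -
    x' * Complex.I by push_cast; ring, Complex.exp_sub, Complex.exp_add, this,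
    mul_div_cancel_right₀ _ (Complex.exp_ne_zero _)]

theorem sg_mem (hd : Sh B d) (h : ∀ u ∈ uIcc x x', B.f (B.κ u) ∈ Q) (t : I) :
    sg B (x + d) (x' + d) t ∈ B.f ⁻¹' Q := by
  have : x + t * (x' - x) ∈ uIcc x x' := by
    rw [← segment_eq_uIcc, segment_eq_image']
    exact ⟨t, t.2, rfl⟩
  rw [sg_apply, show x + d + t * (x' + d - (x + d)) = x + t * (x' - x) + d by ring]
  exact (congrArg (· ∈ Q) (hd _)).mpr (h _ this)

theorem ex_κ (h : B.f y = B.f (B.κ x)) : ∃ d, Sh B d ∧ y = B.κ (x + d) :=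
  let ⟨j, hj⟩ := B.sur x y (h.trans (B.fκ x))
  ⟨_, sh_nat B j, hj.symm⟩

/-- the marked angles, on the right and on the left -/
def ang (ρ : Bool) (k : ℕ) : ℝ := if ρ then B.θ k else π - B.θ k

theorem sin_ang (ρ : Bool) (k : ℕ) : Real.sin (ang B ρ k) = Real.sin (B.θ k) := by
  cases ρ
  exacts [Real.sin_pi_sub _, rfl]

theorem θ_le (hi : i ≤ B.m) : B.θ i ≤ B.θ (i + 1) :=
  (Real.strictMonoOn_sin.le_iff_le (B.θ_mem _) (B.θ_mem _)).1 (B.sin_le hi)

theorem arc0 (i : Fin (B.m + 1)) (hu : u ∈ Icc (B.θ i) (B.θ (i + 1))) (ρ : Bool) :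
    B.f (B.κ (if ρ then u else π - u)) ∈ B.Hq i (false, ρ) := by
  have m : u ∈ Icc (-(π / 2)) (π / 2) := ⟨(B.θ_mem _).1.trans hu.1, hu.2.trans (B.θ_mem _).2⟩
  have s1 := Real.monotoneOn_sin (B.θ_mem _) m hu.1
  have s2 := Real.monotoneOn_sin m (B.θ_mem _) hu.2
  have r0 := B.r_pos
  have a1 := (abs_le.1 (B.θ_abs i)).1
  have a2 := (abs_le.1 (B.θ_abs (i + 1))).2
  have b1 : -(1 / 2) ≤ Real.sin u := by nlinarith
  have b2 : Real.sin u ≤ 1 / 2 := by nlinarith
  have c0 := Real.cos_nonneg_of_mem_Icc m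
  have c1 : 1 / 2 ≤ Real.cos u := by nlinarith [Real.sin_sq_add_cos_sq u]
  have k := abs_lt.1 ((Complex.abs_re_le_norm _).trans_lt (B.big i))
  cases ρ
  · refine ⟨B.mem_T (.inr (s1.trans_eq (Real.sin_pi_sub u).symm))
      (.inr ((Real.sin_pi_sub u).trans_le s2)), ?_⟩
    have := B.re_κ (π - u)
    rw [Real.cos_pi_sub] at this
    simp [Bc.lf, this]
    nlinarith
  · refine ⟨B.mem_T (.inr s1) (.inr s2), ?_⟩
    simp [Bc.lf, B.re_κ]
    nlinarith

theorem arc (i : Fin (B.m + 1)) (ρ τ τ' : Bool)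
    (hu : u ∈ uIcc (ang B ρ (i + τ.toNat)) (ang B ρ (i + τ'.toNat))) :
    B.f (B.κ u) ∈ B.Hq i (false, ρ) := by
  have l := θ_le B (Nat.le_of_lt_succ i.2)
  have k : ∀ τ : Bool, B.θ (i + τ.toNat) ∈ Icc (B.θ i) (B.θ (i + 1)) := fun τ => by
    cases τ
    exacts [⟨le_rfl, l⟩, ⟨l, le_rfl⟩]
  cases ρ
  · have := arc0 B i (u := π - u) (uIcc_subset_Icc (k τ) (k τ') (by
      simp only [ang, Bool.false_eq_true, if_false, mem_uIcc] at hu ⊢
      rcases hu with h | h
      exacts [.inr ⟨by linarith [h.2], by linarith [h.1]⟩,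
        .inl ⟨by linarith [h.2], by linarith [h.1]⟩])) false
    simpa using this
  · exact arc0 B i (uIcc_subset_Icc (k τ) (k τ') hu) true

theorem up_S (k : Fin B.m) : B.Hq k.castSucc (true, true) ⊆ B.S k := fun z h => by
  have a : (B.b k.castSucc).im < z.im := by simpa [Bc.lf] using h.2
  exact ⟨h.1, fun j => ⟨fun hj => (B.mono.monotone (show j ≤ k.castSucc from
    Nat.le_of_lt_succ hj)).trans_lt a, fun hj => (h.1 j).2 (Nat.lt_of_succ_lt hj)⟩⟩

theorem down_S (k : Fin B.m) : B.Hq k.succ (true, false) ⊆ B.S k := fun z h => by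
  have a : z.im < (B.b k.succ).im := by simpa [Bc.lf] using h.2
  exact ⟨fun j => ⟨fun hj => (h.1 j).1 (Nat.lt_succ_of_lt hj), fun hj =>
    a.trans_le (B.mono.monotone (show k.succ ≤ j from hj))⟩, h.1⟩

theorem mem_up (i : Fin (B.m + 1)) (h1 : Real.sin (B.θ (i + 1)) ≤ Real.sin u)
    (h2 : (i : ℕ) = B.m ∨ Real.sin u ≤ Real.sin (B.θ (i + 1))) :
    B.f (B.κ u) ∈ B.Hq i (true, true) :=
  ⟨B.mem_T (.inr ((B.sin_le (Nat.le_of_lt_succ i.2)).trans h1)) h2, by
    have := (B.θ_lt (j := i) (Nat.lt_succ_self i)).trans_le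
      (mul_le_mul_of_nonneg_left h1 B.r_pos.le)
    simpa [Bc.lf, B.im_κ] using this⟩

theorem mem_down (i : Fin (B.m + 1)) (h1 : Real.sin u ≤ Real.sin (B.θ i))
    (h2 : (i : ℕ) = 0 ∨ Real.sin (B.θ i) ≤ Real.sin u) :
    B.f (B.κ u) ∈ B.Hq i (true, false) :=
  ⟨B.mem_T h2 (.inr (h1.trans (B.sin_le (Nat.le_of_lt_succ i.2)))), by
    have := (mul_le_mul_of_nonneg_left h1 B.r_pos.le).trans_lt (B.θ_gt (j := i) le_rfl)
    simpa [Bc.lf, B.im_κ] using this⟩

theorem hq_dis {i : Fin (B.m + 1)} {b c c' : Bool} {z : ℂ} (h : z ∈ B.Hq i (b, c))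
    (h' : z ∈ B.Hq i (b, c')) : c = c' := by
  have a := h.2
  have a' := h'.2
  cases b <;> cases c <;> cases c' <;> simp [Bc.lf] at a a' ⊢ <;> linarith

theorem ang_mem (i : Fin (B.m + 1)) (ρ τ b : Bool) :
    B.f (B.κ (ang B ρ (i + τ.toNat))) ∈ B.Hq i (b, if b then τ else ρ) := by
  cases b
  · exact arc B i ρ τ τ left_mem_uIcc
  · cases τ
    · exact mem_down B i (sin_ang B ρ _).le (.inr (sin_ang B ρ _).ge)
    · exact mem_up B i (sin_ang B ρ _).ge (.inr (sin_ang B ρ _).le)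

end Vale.Agent.P275SR
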